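import Vale.Agent.P057.Levels
import Vale.Agent.P057.Cyclo

/-!
# A smaller constant in Rankin's lower bound for sets without `k`-term progressions, `k ≥ 5`
-/

open Filter

namespace Vale.Agent.Results.P057.RankinConstant

open Vale.Agent.P057

theorem result :
    (∀ k h : ℕ, 5 ≤ k → 2 ≤ h → 1 + 2 * ∑ d ∈ Finset.Ico 1 h, d.totient ≤ k →
      ∀ ε : ℝ, 0 < ε → ∀ᶠ N : ℕ in atTop,
        (N : ℝ) * 2 ^ (-((Nat.clog 2 k * 2 ^ (((Nat.clog 2 k : ℝ) - 1) / 2) *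
          (Real.logb 2 (h / (h - 1))) ^ (1 / (Nat.clog 2 k : ℝ)) + ε) *
          (Real.logb 2 N) ^ (1 / (Nat.clog 2 k : ℝ)))) ≤ rk k N) ∧
    (∀ k : ℕ, 5 ≤ k → ∃ C : ℝ, C < Nat.clog 2 k * 2 ^ (((Nat.clog 2 k : ℝ) - 1) / 2) ∧
      ∀ᶠ N : ℕ in atTop,
        (N : ℝ) * 2 ^ (-(C * (Real.logb 2 N) ^ (1 / (Nat.clog 2 k : ℝ)))) ≤ rk k N) := by
  have hmain : ∀ k h : ℕ, 5 ≤ k → 2 ≤ h → 1 + 2 * ∑ d ∈ Finset.Ico 1 h, d.totient ≤ k →
      ∀ ε : ℝ, 0 < ε → ∀ᶠ N : ℕ in atTop,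
        (N : ℝ) * 2 ^ (-((Nat.clog 2 k * 2 ^ (((Nat.clog 2 k : ℝ) - 1) / 2) *
          (Real.logb 2 (h / (h - 1))) ^ (1 / (Nat.clog 2 k : ℝ)) + ε) *
          (Real.logb 2 N) ^ (1 / (Nat.clog 2 k : ℝ)))) ≤ rk k N := by
    intro k h hk hh hcond ε hε
    have hh0 : (2 : ℝ) ≤ h := by exact_mod_cast hh
    have hθ : (1 : ℝ) / (1 - 1 / (h : ℝ)) = h / (h - 1) := by
      have h1 : (h : ℝ) ≠ 0 := by positivity
      have h2 : (h : ℝ) - 1 ≠ 0 := by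
        have : (0 : ℝ) < (h : ℝ) - 1 := by linarith
        exact this.ne'
      field_simp
    have hn3 : 3 ≤ Nat.clog 2 k := by
      have h1 : 2 < Nat.clog 2 k := by
        rw [Nat.lt_clog_iff_pow_lt (by norm_num)]
        omega
      omega
    have hKn : 2 ^ (Nat.clog 2 k - 1) < k := by
      rw [← Nat.lt_clog_iff_pow_lt (by norm_num)]
      omega
    have h1h : (0 : ℝ) < 1 / (h : ℝ) := by positivity
    have h1h' : 1 / (h : ℝ) ≤ 1 / 2 := one_div_le_one_div_of_le (by norm_num) hh0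
    have h1 := bound_of_cert (cyclo_cert h k hh hcond) (1 - 1 / (h : ℝ)) (by linarith)
      (by linarith)
      (fun θ' hθ' => count_Ico _ θ' hθ' (by linarith)) (Nat.clog 2 k) hn3 hKn ε hε
    rw [hθ] at h1
    exact h1
  refine ⟨hmain, fun k hk => ?_⟩
  have hn3 : 3 ≤ Nat.clog 2 k := by
    have h1 : 2 < Nat.clog 2 k := by
      rw [Nat.lt_clog_iff_pow_lt (by norm_num)]
      omega
    omega
  have hn0 : (0 : ℝ) < Nat.clog 2 k := by
    have : 0 < Nat.clog 2 k := by omega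
    exact_mod_cast this
  have hA : (0 : ℝ) < Nat.clog 2 k * 2 ^ (((Nat.clog 2 k : ℝ) - 1) / 2) := by positivity
  set A : ℝ := Nat.clog 2 k * 2 ^ (((Nat.clog 2 k : ℝ) - 1) / 2) with hAdef
  set ρ : ℝ := (Real.logb 2 (((3 : ℕ) : ℝ) / (((3 : ℕ) : ℝ) - 1))) ^ (1 / (Nat.clog 2 k : ℝ))
    with hρ
  have hρ1 : ρ < 1 := by
    refine Real.rpow_lt_one ?_ ?_ (by positivity)
    · exact Real.logb_nonneg (by norm_num) (by norm_num)
    · rw [Real.logb_lt_iff_lt_rpow (by norm_num) (by norm_num)]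
      norm_num
  refine ⟨A * ρ + A * (1 - ρ) / 2, ?_, ?_⟩
  · nlinarith
  · have hcond : 1 + 2 * ∑ d ∈ Finset.Ico 1 3, d.totient ≤ k := by
      have : ∑ d ∈ Finset.Ico 1 3, d.totient = 2 := by decide
      omega
    exact hmain k 3 hk (by norm_num) hcond (A * (1 - ρ) / 2) (by nlinarith)

end Vale.Agent.Results.P057.RankinConstant
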