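import Vale.Agent.P057R3.MainF

/-!
P057, question Q2 for `k = 3`: a new upper bound for `r_3(N)`,
`r_3(N) ≤ N exp(-c (log N / log log N)^{1/6})` for every `N ≥ 3`.
The known list has the exponent `1/9`.
-/

namespace Vale.Agent.Results.P057.RothSixth

/-- There is an absolute constant `c > 0` such that for every `N ≥ 3`, every subset `A` of
`{1, ..., N}` without a three term arithmetic progression `a, a + d, a + 2 d` (`d > 0`) has at
most `N exp(-c (log N / log log N)^{1/6})` elements. -/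
theorem result : ∃ c : ℝ, 0 < c ∧ ∀ N : ℕ, 3 ≤ N → ∀ A : Finset ℕ, A ⊆ Finset.Icc 1 N →
    (∀ a d : ℕ, 0 < d → ¬ (a ∈ A ∧ a + d ∈ A ∧ a + 2 * d ∈ A)) →
    (A.card : ℝ) ≤ N * Real.exp
      (-(c * (Real.log N / Real.log (Real.log N)) ^ (1 / 6 : ℝ))) :=
  Vale.Agent.P057R3.MainF.final

end Vale.Agent.Results.P057.RothSixth
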